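import Mathlib

namespace Vale.Agent.P047

open Finset

/-- sign of a bit -/
def sg (b : Bool) : ℝ := if b then 1 else -1

theorem sg_sq (b : Bool) : sg b * sg b = 1 := by cases b <;> simp [sg]

/-- biased product measure -/
noncomputable def mu {n : ℕ} (t : ℝ) (x : Fin n → Bool) : ℝ := ∏ i, (1 + t * sg (x i)) / 2

noncomputable def chi {n : ℕ} (t : ℝ) (S : Finset (Fin n)) (x : Fin n → Bool) : ℝ :=
  ∏ i ∈ S, (sg (x i) - t)

noncomputable def Ex {n : ℕ} (t : ℝ) (g : (Fin n → Bool) → ℝ) : ℝ := ∑ x, mu t x * g x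

theorem sum_prod {n : ℕ} (g : Fin n → Bool → ℝ) :
    ∑ x : Fin n → Bool, ∏ i, g i (x i) = ∏ i, (g i true + g i false) := by
  have h := Finset.prod_univ_sum (fun _ : Fin n => (univ : Finset Bool)) g
  rw [Fintype.piFinset_univ] at h
  rw [← h]
  exact prod_congr rfl fun i _ => by simp

theorem mu_pos {n : ℕ} (t : ℝ) (ht : |t| < 1) (x : Fin n → Bool) : 0 < mu t x := by
  have h := abs_lt.1 ht
  refine prod_pos fun i _ => ?_
  cases x i <;> simp [sg] <;> linarith

theorem mu_sum {n : ℕ} (t : ℝ) : ∑ x : Fin n → Bool, mu t x = 1 := by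
  unfold mu
  rw [sum_prod (fun _ b => (1 + t * sg b) / 2)]
  refine prod_eq_one fun i _ => ?_
  simp [sg]; ring

theorem kernel {n : ℕ} (t : ℝ) (ht : |t| < 1) (x y : Fin n → Bool) :
    ∑ S : Finset (Fin n), chi t S x * chi t S y / (1 - t ^ 2) ^ S.card =
      if x = y then (mu t x)⁻¹ else 0 := by
  have h := abs_lt.1 ht
  have hw : 0 < 1 - t ^ 2 := by nlinarith
  have e1 : ∀ S : Finset (Fin n), chi t S x * chi t S y / (1 - t ^ 2) ^ S.card =
      ∏ i ∈ S, ((sg (x i) - t) * (sg (y i) - t) / (1 - t ^ 2)) := by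
    intro S
    unfold chi
    rw [prod_div_distrib, prod_mul_distrib, prod_const]
  simp only [e1]
  have e2 := Finset.prod_one_add (f := fun i : Fin n =>
    (sg (x i) - t) * (sg (y i) - t) / (1 - t ^ 2)) (s := univ)
  rw [powerset_univ] at e2
  rw [← e2]
  by_cases hxy : x = y
  · subst hxy
    rw [if_pos rfl]
    unfold mu
    rw [← prod_inv_distrib]
    refine prod_congr rfl fun i _ => ?_
    have h1 : (1 : ℝ) + t ≠ 0 := by linarith
    have h2 : (1 : ℝ) - t ≠ 0 := by linarith
    have h3 : (1 : ℝ) - t ^ 2 = (1 - t) * (1 + t) := by ring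
    rw [h3]
    cases x i
    · simp only [sg]
      have h4 : (1 : ℝ) + t * -1 = 1 - t := by ring
      simp only [Bool.false_eq_true, if_false]
      rw [h4]
      field_simp
      ring
    · simp only [sg, if_true, mul_one]
      field_simp
      ring
  · rw [if_neg hxy]
    obtain ⟨i, hi⟩ : ∃ i, x i ≠ y i := by
      by_contra hcon
      push Not at hcon
      exact hxy (funext hcon)
    refine prod_eq_zero (mem_univ i) ?_
    have h3 : (sg (x i) - t) * (sg (y i) - t) = -(1 - t ^ 2) := by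
      cases hx : x i <;> cases hy : y i
      · exact absurd (hx.trans hy.symm) hi
      · simp [sg]; ring
      · simp [sg]; ring
      · exact absurd (hx.trans hy.symm) hi
    rw [h3]
    field_simp
    ring

theorem parseval {n : ℕ} (t : ℝ) (ht : |t| < 1) (g : (Fin n → Bool) → ℝ) :
    ∑ S : Finset (Fin n), (Ex t (fun x => g x * chi t S x)) ^ 2 / (1 - t ^ 2) ^ S.card =
      Ex t (fun x => g x ^ 2) := by
  have e1 : ∀ S : Finset (Fin n), (Ex t (fun x => g x * chi t S x)) ^ 2 / (1 - t ^ 2) ^ S.card =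
      ∑ x, ∑ y, (mu t x * g x) * (mu t y * g y) *
        (chi t S x * chi t S y / (1 - t ^ 2) ^ S.card) := by
    intro S
    unfold Ex
    rw [sq, sum_mul_sum, sum_div]
    refine sum_congr rfl fun x _ => ?_
    rw [sum_div]
    exact sum_congr rfl fun y _ => by ring
  simp only [e1]
  rw [sum_comm]
  unfold Ex
  refine sum_congr rfl fun x _ => ?_
  rw [sum_comm]
  simp only [← mul_sum, kernel t ht x]
  simp only [mul_ite, mul_zero]
  rw [sum_ite_eq univ x]
  rw [if_pos (mem_univ x)]
  have := (mu_pos t ht x).ne'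
  field_simp

/-- flip -/
def fl {n : ℕ} (i : Fin n) (x : Fin n → Bool) : Fin n → Bool := Function.update x i (!(x i))

theorem fl_fl {n : ℕ} (i : Fin n) (x : Fin n → Bool) : fl i (fl i x) = x := by
  unfold fl
  simp

theorem sum_fl {n : ℕ} (i : Fin n) (F : (Fin n → Bool) → ℝ) : ∑ x, F (fl i x) = ∑ x, F x :=
  Fintype.sum_equiv (Function.Involutive.toPerm (fl i) (fl_fl i)) _ _ (fun _ => rfl)

noncomputable def mup {n : ℕ} (t : ℝ) (i : Fin n) (x : Fin n → Bool) : ℝ :=
  ∏ j ∈ univ.erase i, (1 + t * sg (x j)) / 2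

theorem mu_eq {n : ℕ} (t : ℝ) (i : Fin n) (x : Fin n → Bool) :
    mu t x = (1 + t * sg (x i)) / 2 * mup t i x := by
  unfold mu mup
  rw [mul_prod_erase univ (fun j => (1 + t * sg (x j)) / 2) (mem_univ i)]

theorem mup_fl {n : ℕ} (t : ℝ) (i : Fin n) (x : Fin n → Bool) :
    mup t i (fl i x) = mup t i x := by
  unfold mup fl
  refine prod_congr rfl fun j hj => ?_
  rw [Function.update_of_ne (ne_of_mem_erase hj)]

theorem chi_fl {n : ℕ} (t : ℝ) (i : Fin n) (S : Finset (Fin n)) (hi : i ∉ S)
    (x : Fin n → Bool) : chi t S (fl i x) = chi t S x := by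
  unfold chi fl
  refine prod_congr rfl fun j hj => ?_
  have hji : j ≠ i := fun h => hi (by rw [← h]; exact hj)
  rw [Function.update_of_ne hji]

/-- discrete derivative -/
noncomputable def Df {n : ℕ} (i : Fin n) (f : (Fin n → Bool) → ℝ) (x : Fin n → Bool) : ℝ :=
  (f (Function.update x i true) - f (Function.update x i false)) / 2

theorem Df_fl {n : ℕ} (i : Fin n) (f : (Fin n → Bool) → ℝ) (x : Fin n → Bool) :
    Df i f (fl i x) = Df i f x := by
  unfold Df fl
  simp

theorem sg_fl {n : ℕ} (i : Fin n) (x : Fin n → Bool) : sg (fl i x i) = -sg (x i) := by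
  unfold fl
  rw [Function.update_self]
  cases x i <;> simp [sg]

theorem pair_Df {n : ℕ} (i : Fin n) (f : (Fin n → Bool) → ℝ) (x : Fin n → Bool) :
    sg (x i) * f x + sg (fl i x i) * f (fl i x) = 2 * Df i f x := by
  rw [sg_fl]
  unfold Df fl
  cases hx : x i
  · have h1 : Function.update x i false = x := by rw [← hx]; simp
    rw [h1]
    simp [sg]; ring
  · have h1 : Function.update x i true = x := by rw [← hx]; simp
    rw [h1]
    simp [sg]; ring

/-- `E_t[f χ_S (x_i - t)] = (1-t²) E_t[D_i f χ_S]` -/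
theorem B_insert {n : ℕ} (t : ℝ) (i : Fin n) (S : Finset (Fin n)) (hi : i ∉ S)
    (f : (Fin n → Bool) → ℝ) :
    Ex t (fun x => f x * chi t (insert i S) x) =
      (1 - t ^ 2) * Ex t (fun x => Df i f x * chi t S x) := by
  unfold Ex
  have e1 : ∀ x, mu t x * (f x * chi t (insert i S) x) =
      (1 - t ^ 2) / 2 * (mup t i x * chi t S x * (sg (x i) * f x)) := by
    intro x
    have h1 : chi t (insert i S) x = (sg (x i) - t) * chi t S x := by
      unfold chi; rw [prod_insert hi]
    rw [h1, mu_eq t i x]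
    have h2 := sg_sq (x i)
    linear_combination (mup t i x * f x * chi t S x * t / 2) * h2
  have e2 : ∑ x, mup t i x * chi t S x * (sg (x i) * f x) =
      ∑ x, mup t i x * chi t S x * Df i f x := by
    have h1 := sum_fl i (fun x => mup t i x * chi t S x * (sg (x i) * f x))
    simp only [mup_fl, chi_fl t i S hi] at h1
    have h2 : ∑ x, mup t i x * chi t S x * (sg (x i) * f x) +
        ∑ x, mup t i x * chi t S x * (sg (fl i x i) * f (fl i x)) =
        2 * ∑ x, mup t i x * chi t S x * Df i f x := by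
      rw [← sum_add_distrib, mul_sum]
      refine sum_congr rfl fun x _ => ?_
      have := pair_Df i f x
      linear_combination (mup t i x * chi t S x) * this
    linarith
  have e3 : ∑ x, mu t x * (Df i f x * chi t S x) =
      1 / 2 * ∑ x, mup t i x * chi t S x * Df i f x := by
    have h1 := sum_fl i (fun x => mu t x * (Df i f x * chi t S x))
    simp only [Df_fl, chi_fl t i S hi] at h1
    have h2 : ∑ x, mu t x * (Df i f x * chi t S x) +
        ∑ x, mu t (fl i x) * (Df i f x * chi t S x) =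
        ∑ x, mup t i x * chi t S x * Df i f x := by
      rw [← sum_add_distrib]
      refine sum_congr rfl fun x _ => ?_
      rw [mu_eq t i x, mu_eq t i (fl i x), sg_fl, mup_fl]
      ring
    linarith
  simp only [e1]
  rw [← mul_sum, e2, e3]
  ring

theorem B_mem {n : ℕ} (t : ℝ) (i : Fin n) (S : Finset (Fin n)) (hi : i ∉ S)
    (f : (Fin n → Bool) → ℝ) :
    Ex t (fun x => Df i f x * chi t (insert i S) x) = 0 := by
  rw [B_insert t i S hi]
  have : ∀ x, Df i (Df i f) x = 0 := by
    intro x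
    unfold Df
    simp
  simp [this, Ex]

/-- influence-type inequality for Boolean functions -/
theorem infl {n : ℕ} (t : ℝ) (ht : |t| < 1) (i : Fin n) (f : (Fin n → Bool) → ℝ)
    (hf : ∀ x, f x = 1 ∨ f x = -1) :
    |Ex t (fun x => f x * chi t {i} x)| ≤
      ∑ T ∈ univ.filter (fun T : Finset (Fin n) => i ∈ T),
        (Ex t (fun x => f x * chi t T x)) ^ 2 / (1 - t ^ 2) ^ T.card := by
  classical
  have h := abs_lt.1 ht
  have hw : 0 < 1 - t ^ 2 := by nlinarith
  have hD : ∀ x, |Df i f x| = Df i f x ^ 2 := by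
    intro x
    unfold Df
    rcases hf (Function.update x i true) with h1 | h1 <;>
      rcases hf (Function.update x i false) with h2 | h2 <;> rw [h1, h2] <;> norm_num
  have h1 : Ex t (fun x => f x * chi t {i} x) = (1 - t ^ 2) * Ex t (fun x => Df i f x) := by
    have := B_insert t i ∅ (notMem_empty i) f
    rw [insert_empty_eq] at this
    rw [this]
    congr 2
    funext x
    simp [chi]
  have h2 : |Ex t (fun x => Df i f x)| ≤ Ex t (fun x => Df i f x ^ 2) := by
    unfold Ex
    refine (abs_sum_le_sum_abs _ _).trans (sum_le_sum fun x _ => ?_)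
    rw [abs_mul, abs_of_pos (mu_pos t ht x), hD x]
  have h3 := parseval t ht (Df i f)
  have h4 : ∑ S : Finset (Fin n), (Ex t (fun x => Df i f x * chi t S x)) ^ 2 /
      (1 - t ^ 2) ^ S.card =
      ∑ S ∈ univ.filter (fun S : Finset (Fin n) => i ∉ S),
        (Ex t (fun x => Df i f x * chi t S x)) ^ 2 / (1 - t ^ 2) ^ S.card := by
    symm
    refine sum_subset (filter_subset _ _) fun S _ hS => ?_
    have hiS : i ∈ S := by
      by_contra hcon
      exact hS (mem_filter.2 ⟨mem_univ _, hcon⟩)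
    have := B_mem t i (S.erase i) (notMem_erase i S) f
    rw [insert_erase hiS] at this
    rw [this]; simp
  have h5 : ∑ T ∈ univ.filter (fun T : Finset (Fin n) => i ∈ T),
        (Ex t (fun x => f x * chi t T x)) ^ 2 / (1 - t ^ 2) ^ T.card =
      (1 - t ^ 2) * ∑ S ∈ univ.filter (fun S : Finset (Fin n) => i ∉ S),
        (Ex t (fun x => Df i f x * chi t S x)) ^ 2 / (1 - t ^ 2) ^ S.card := by
    rw [mul_sum]
    symm
    refine sum_bij' (fun S _ => insert i S) (fun T _ => T.erase i) ?_ ?_ ?_ ?_ ?_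
    · intro S _; simp
    · intro T _; simp
    · intro S hS
      exact erase_insert (mem_filter.1 hS).2
    · intro T hT
      exact insert_erase (mem_filter.1 hT).2
    · intro S hS
      have hi := (mem_filter.1 hS).2
      rw [B_insert t i S hi, card_insert_of_notMem hi, pow_succ]
      field_simp
      ring
  rw [h5, ← h4, h3, h1, abs_mul, abs_of_pos hw]
  exact mul_le_mul_of_nonneg_left h2 hw.le

/-- Fourier coefficient -/
noncomputable def fhat {n : ℕ} (f : (Fin n → Bool) → ℝ) (S : Finset (Fin n)) : ℝ :=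
  (∑ x, f x * ∏ i ∈ S, (if x i then (1 : ℝ) else -1)) / 2 ^ n

theorem inversion {n : ℕ} (f : (Fin n → Bool) → ℝ) (x : Fin n → Bool) :
    f x = ∑ U : Finset (Fin n), fhat f U * ∏ i ∈ U, sg (x i) := by
  have hk := kernel (n := n) 0 (by simp)
  have e0 : ∀ (S : Finset (Fin n)) (x : Fin n → Bool), chi 0 S x = ∏ i ∈ S, sg (x i) := by
    intro S x; unfold chi; simp
  have hmu : ∀ x : Fin n → Bool, mu 0 x = (1 / 2) ^ n := by
    intro x; unfold mu; simp
  have e1 : ∀ U : Finset (Fin n), fhat f U * ∏ i ∈ U, sg (x i) =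
      ∑ y, f y / 2 ^ n * (chi 0 U y * chi 0 U x / (1 - 0 ^ 2) ^ U.card) := by
    intro U
    unfold fhat
    rw [sum_div, sum_mul]
    refine sum_congr rfl fun y _ => ?_
    rw [e0, e0]
    simp only [sg]
    norm_num
    ring
  simp only [e1]
  rw [sum_comm]
  simp only [← mul_sum, hk, hmu]
  simp only [mul_ite, mul_zero]
  rw [sum_ite_eq' univ x, if_pos (mem_univ x)]
  rw [one_div, inv_pow, inv_inv]
  field_simp

theorem Ex_prod {n : ℕ} (t : ℝ) (g : Fin n → Bool → ℝ) :
    Ex t (fun x => ∏ i, g i (x i)) =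
      ∏ i, ((1 + t) / 2 * g i true + (1 - t) / 2 * g i false) := by
  unfold Ex mu
  simp only [← prod_mul_distrib]
  rw [sum_prod (fun i b => (1 + t * sg b) / 2 * g i b)]
  refine prod_congr rfl fun i _ => ?_
  simp only [sg, if_true, Bool.false_eq_true, if_false]
  ring

theorem Ex_chi {n : ℕ} (t : ℝ) (U S : Finset (Fin n)) :
    Ex t (fun x => (∏ i ∈ U, sg (x i)) * chi t S x) =
      ∏ i, ((1 + t) / 2 * ((if i ∈ U then 1 else 1) * (if i ∈ S then 1 - t else 1)) +
        (1 - t) / 2 * ((if i ∈ U then -1 else 1) * (if i ∈ S then -1 - t else 1))) := by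
  have e : ∀ x : Fin n → Bool, (∏ i ∈ U, sg (x i)) * chi t S x =
      ∏ i, ((if i ∈ U then sg (x i) else 1) * (if i ∈ S then sg (x i) - t else 1)) := by
    intro x
    unfold chi
    rw [prod_mul_distrib]
    simp [prod_ite_mem]
  simp only [e]
  have := Ex_prod t (fun (i : Fin n) b => (if i ∈ U then sg b else 1) *
    (if i ∈ S then sg b - t else 1))
  rw [this]
  refine prod_congr rfl fun i _ => ?_
  by_cases h1 : i ∈ U <;> by_cases h2 : i ∈ S <;> simp [sg, h1, h2]

theorem Ex_f {n : ℕ} (t : ℝ) (f : (Fin n → Bool) → ℝ) (S : Finset (Fin n)) :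
    Ex t (fun x => f x * chi t S x) =
      ∑ U : Finset (Fin n), fhat f U * Ex t (fun x => (∏ i ∈ U, sg (x i)) * chi t S x) := by
  unfold Ex
  simp only [mul_sum]
  rw [sum_comm]
  refine sum_congr rfl fun x _ => ?_
  nth_rewrite 1 [inversion f x]
  rw [sum_mul, mul_sum]
  exact sum_congr rfl fun U _ => by ring

theorem p_eq {n : ℕ} (t : ℝ) (f : (Fin n → Bool) → ℝ) :
    Ex t f = ∑ U : Finset (Fin n), fhat f U * t ^ U.card := by
  have h1 := Ex_f t f ∅
  have e1 : ∀ x : Fin n → Bool, chi t ∅ x = 1 := fun x => by simp [chi]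
  simp only [e1, mul_one] at h1
  have h0 : Ex t (fun x => f x) = Ex t f := rfl
  rw [h0] at h1
  rw [h1]
  refine sum_congr rfl fun U _ => ?_
  congr 1
  have h2 := Ex_chi t U (∅ : Finset (Fin n))
  simp only [e1, mul_one] at h2
  rw [h2]
  have h3 : ∀ i : Fin n, ((1 + t) / 2 * ((if i ∈ U then 1 else 1) *
      (if i ∈ (∅ : Finset (Fin n)) then 1 - t else 1)) +
        (1 - t) / 2 * ((if i ∈ U then -1 else 1) *
          (if i ∈ (∅ : Finset (Fin n)) then -1 - t else 1))) =
      if i ∈ U then t else 1 := by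
    intro i
    by_cases h : i ∈ U <;> simp [h] <;> ring
  simp only [h3]
  simp [prod_ite_mem]

theorem B_high {n : ℕ} (t : ℝ) (f : (Fin n → Bool) → ℝ) (d : ℕ)
    (hd : ∀ U : Finset (Fin n), d < U.card → fhat f U = 0) (S : Finset (Fin n))
    (hS : d < S.card) : Ex t (fun x => f x * chi t S x) = 0 := by
  rw [Ex_f]
  refine sum_eq_zero fun U _ => ?_
  by_cases hU : d < U.card
  · rw [hd U hU, zero_mul]
  · have : ¬ S ⊆ U := fun h => hU (lt_of_lt_of_le hS (card_le_card h))
    rw [Finset.not_subset] at this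
    obtain ⟨i, hiS, hiU⟩ := this
    rw [Ex_chi, prod_eq_zero (mem_univ i), mul_zero]
    simp only [hiS, hiU, if_true, if_false]
    ring

/-- differential inequality, algebraic form -/
theorem diff_ineq {n : ℕ} (t : ℝ) (ht : |t| < 1) (f : (Fin n → Bool) → ℝ)
    (hf : ∀ x, f x = 1 ∨ f x = -1) (d : ℕ)
    (hd : ∀ U : Finset (Fin n), d < U.card → fhat f U = 0) :
    |∑ i, Ex t (fun x => f x * chi t {i} x)| ≤ d * (1 - Ex t f ^ 2) := by
  classical
  have h := abs_lt.1 ht
  have hw : 0 < 1 - t ^ 2 := by nlinarith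
  set A : Finset (Fin n) → ℝ := fun T =>
    (Ex t (fun x => f x * chi t T x)) ^ 2 / (1 - t ^ 2) ^ T.card with hA
  have hA0 : ∀ T, 0 ≤ A T := fun T => by simp only [hA]; positivity
  have h1 : |∑ i, Ex t (fun x => f x * chi t {i} x)| ≤ ∑ T : Finset (Fin n), T.card * A T := by
    refine (abs_sum_le_sum_abs _ _).trans ((sum_le_sum fun i _ => infl t ht i f hf).trans ?_)
    simp only [sum_filter]
    rw [sum_comm]
    refine le_of_eq (sum_congr rfl fun T _ => ?_)
    rw [← sum_filter, sum_const, nsmul_eq_mul]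
    congr 2
    congr 1
    ext i; simp
  have h2 : ∑ T : Finset (Fin n), (T.card : ℝ) * A T ≤
      ∑ T ∈ univ.erase (∅ : Finset (Fin n)), d * A T := by
    rw [← add_sum_erase univ _ (mem_univ (∅ : Finset (Fin n)))]
    simp only [card_empty, Nat.cast_zero, zero_mul, zero_add]
    refine sum_le_sum fun T _ => ?_
    by_cases hT : d < T.card
    · have : A T = 0 := by simp only [hA]; rw [B_high t f d hd T hT]; simp
      rw [this]; simp
    · exact mul_le_mul_of_nonneg_right (by exact_mod_cast not_lt.1 hT) (hA0 T)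
  have h3 := parseval t ht f
  have h4 : Ex t (fun x => f x ^ 2) = 1 := by
    have : ∀ x, f x ^ 2 = 1 := fun x => by rcases hf x with h | h <;> rw [h] <;> norm_num
    simp only [this, Ex, mul_one]
    exact mu_sum t
  have h5 : A ∅ = Ex t f ^ 2 := by simp [hA, chi]
  rw [h4] at h3
  change ∑ T, A T = 1 at h3
  rw [← add_sum_erase univ _ (mem_univ (∅ : Finset (Fin n))), h5] at h3
  rw [← mul_sum] at h2
  refine h1.trans (h2.trans (le_of_eq ?_))
  have : ∑ T ∈ univ.erase (∅ : Finset (Fin n)), A T = 1 - Ex t f ^ 2 := by linarith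
  rw [this]

theorem deriv_p {n : ℕ} (t : ℝ) (f : (Fin n → Bool) → ℝ) (ht : |t| < 1) :
    HasDerivAt (fun s => Ex s f)
      ((∑ i, Ex t (fun x => f x * chi t {i} x)) / (1 - t ^ 2)) t := by
  classical
  have h := abs_lt.1 ht
  have hw : 0 < 1 - t ^ 2 := by nlinarith
  have h1 : ∀ x : Fin n → Bool, HasDerivAt (fun s => mu s x)
      (∑ i, (∏ j ∈ univ.erase i, (1 + t * sg (x j)) / 2) • (sg (x i) / 2)) t := by
    intro x
    have := HasDerivAt.finsetProd (u := (univ : Finset (Fin n)))
      (f := fun i (s : ℝ) => (1 + s * sg (x i)) / 2) (f' := fun i => sg (x i) / 2) (x := t)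
      (fun i _ => by
        have h2 : HasDerivAt (fun s : ℝ => (1 + s * sg (x i)) / 2) (1 * sg (x i) / 2) t := by
          refine HasDerivAt.div_const ?_ 2
          exact ((hasDerivAt_id t).mul_const (sg (x i))).const_add 1
        simpa using h2)
    have e : (∏ i, fun s : ℝ => (1 + s * sg (x i)) / 2) = fun s => mu s x := by
      funext s; simp [mu, Finset.prod_apply]
    rw [e] at this
    exact this
  have h2 : HasDerivAt (fun s => Ex s f)
      (∑ x, (∑ i, (∏ j ∈ univ.erase i, (1 + t * sg (x j)) / 2) • (sg (x i) / 2)) * f x) t := by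
    unfold Ex
    exact HasDerivAt.fun_sum fun x _ => (h1 x).mul_const (f x)
  convert h2 using 1
  rw [sum_div]
  simp only [sum_mul]
  rw [sum_comm]
  refine sum_congr rfl fun i _ => ?_
  unfold Ex
  rw [sum_div]
  refine sum_congr rfl fun x _ => ?_
  have h3 : chi t {i} x = sg (x i) - t := by simp [chi]
  change mu t x * (f x * chi t {i} x) / (1 - t ^ 2) = _
  rw [h3, mu_eq t i x, div_eq_iff hw.ne']
  unfold mup
  have h4 := sg_sq (x i)
  rw [smul_eq_mul]
  linear_combination ((∏ j ∈ univ.erase i, (1 + t * sg (x j)) / 2) * f x * t / 2) * h4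

end Vale.Agent.P047
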