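import Mathlib

namespace Vale.Agent.P047

open Finset Complex

/-- node `θ_k = (2k+1)π/(2d)` -/
noncomputable def th (d k : ℕ) : ℝ := (2 * k + 1) * Real.pi / (2 * d)

/-- weight `λ_k` -/
noncomputable def la (d k : ℕ) : ℝ := 1 / (4 * d * Real.sin (th d k / 2) ^ 2)

theorem sin_pos' (d k : ℕ) (hd : 0 < d) (hk : k < 2 * d) : 0 < Real.sin (th d k / 2) := by
  have hdR : (0 : ℝ) < d := by exact_mod_cast hd
  have hkR : (k : ℝ) + 1 ≤ 2 * d := by exact_mod_cast hk
  refine Real.sin_pos_of_pos_of_lt_pi ?_ ?_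
  · unfold th; positivity
  · unfold th
    rw [div_div, div_lt_iff₀ (by positivity)]
    have := Real.pi_pos
    nlinarith

/-- `a_m = Σ (-1)^k λ_k e^{i m θ_k}` -/
noncomputable def am (d : ℕ) (m : ℤ) : ℂ :=
  ∑ k ∈ range (2 * d), (-1) ^ k * (la d k : ℂ) * Complex.exp (Complex.I * m * th d k)

theorem geom_zero (d : ℕ) (hd : 0 < d) (m : ℤ) (hm : |m| < d) :
    ∑ k ∈ range (2 * d), (-1 : ℂ) ^ k * Complex.exp (Complex.I * m * th d k) = 0 := by
  have hdR : (d : ℂ) ≠ 0 := by exact_mod_cast hd.ne'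
  set z : ℂ := -Complex.exp (Complex.I * m * Real.pi / d) with hz
  have h1 : ∀ k : ℕ, (-1 : ℂ) ^ k * Complex.exp (Complex.I * m * th d k) =
      Complex.exp (Complex.I * m * Real.pi / (2 * d)) * z ^ k := by
    intro k
    have hzk : z ^ k = (-1) ^ k * Complex.exp (k * (Complex.I * m * Real.pi / d)) := by
      rw [hz, neg_pow, ← Complex.exp_nat_mul]
    rw [hzk]
    have : Complex.exp (Complex.I * m * th d k) =
        Complex.exp (Complex.I * m * Real.pi / (2 * d)) *
          Complex.exp (k * (Complex.I * m * Real.pi / d)) := by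
      rw [← Complex.exp_add]
      congr 1
      unfold th
      push_cast
      field_simp
      ring
    rw [this]; ring
  simp only [h1]
  rw [← mul_sum]
  have hz1 : z ≠ 1 := by
    intro h
    rw [hz, neg_eq_iff_eq_neg] at h
    have h2 : Complex.exp (Complex.I * m * Real.pi / d) = Complex.exp (Real.pi * Complex.I) := by
      rw [h, Complex.exp_pi_mul_I]
    rw [Complex.exp_eq_exp_iff_exists_int] at h2
    obtain ⟨n, hn⟩ := h2
    have hpi : (Real.pi : ℂ) ≠ 0 := by exact_mod_cast Real.pi_ne_zero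
    have h3 : (m : ℂ) = d * (1 + 2 * n) := by
      have hI := Complex.I_ne_zero
      have h4 : Complex.I * Real.pi * m = Complex.I * Real.pi * (d * (1 + 2 * n)) := by
        field_simp at hn
        linear_combination Complex.I * Real.pi * hn
      exact mul_left_cancel₀ (mul_ne_zero hI hpi) h4
    have h5 : m = d * (1 + 2 * n) := by exact_mod_cast h3
    rw [h5, abs_mul] at hm
    have h6 : (1 : ℤ) ≤ |1 + 2 * n| := by
      rcases abs_cases (1 + 2 * n) with h | h <;> omega
    have h7 : |(d : ℤ)| = d := abs_of_nonneg (by positivity)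
    rw [h7] at hm
    have hd' : (0 : ℤ) < d := by exact_mod_cast hd
    nlinarith
  rw [geom_sum_eq hz1]
  have h2 : z ^ (2 * d) = 1 := by
    rw [hz, neg_pow, ← Complex.exp_nat_mul]
    have : ((2 * d : ℕ) : ℂ) * (Complex.I * m * Real.pi / d) = m * (2 * Real.pi * Complex.I) := by
      push_cast; field_simp
    rw [this, Complex.exp_int_mul_two_pi_mul_I, pow_mul]
    norm_num
  rw [h2]; simp

theorem am_rec (d : ℕ) (hd : 0 < d) (m : ℤ) :
    am d (m + 1) - 2 * am d m + am d (m - 1) =
      -(1 / (d : ℂ)) * ∑ k ∈ range (2 * d), (-1 : ℂ) ^ k * Complex.exp (Complex.I * m * th d k) := by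
  have hdR : (d : ℂ) ≠ 0 := by exact_mod_cast hd.ne'
  unfold am
  rw [mul_sum, mul_sum, ← sum_sub_distrib, ← sum_add_distrib]
  refine sum_congr rfl fun k hk => ?_
  have hs := sin_pos' d k hd (mem_range.1 hk)
  set s : ℝ := Real.sin (th d k / 2) with hs'
  have hsC : (s : ℂ) ≠ 0 := by exact_mod_cast hs.ne'
  have e1 : Complex.exp (Complex.I * ((m + 1 : ℤ) : ℂ) * th d k) =
      Complex.exp (Complex.I * m * th d k) * Complex.exp (Complex.I * th d k) := by
    rw [← Complex.exp_add]; congr 1; push_cast; ring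
  have e2 : Complex.exp (Complex.I * ((m - 1 : ℤ) : ℂ) * th d k) =
      Complex.exp (Complex.I * m * th d k) * Complex.exp (-(Complex.I * th d k)) := by
    rw [← Complex.exp_add]; congr 1; push_cast; ring
  have e3 : Complex.exp (Complex.I * th d k) - 2 + Complex.exp (-(Complex.I * th d k)) =
      -4 * (s : ℂ) ^ 2 := by
    have h1 : Complex.exp (Complex.I * th d k) + Complex.exp (-(Complex.I * th d k)) =
        2 * Complex.cos (th d k) := by
      rw [Complex.cos]
      rw [mul_comm Complex.I]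
      ring_nf
    have h2 : Complex.cos (th d k) = 1 - 2 * (s : ℂ) ^ 2 := by
      have h3 : Real.cos (th d k) = 1 - 2 * s ^ 2 := by
        have h5 := Real.cos_two_mul (th d k / 2)
        have h4 := Real.sin_sq_add_cos_sq (th d k / 2)
        rw [← hs'] at h4
        have h6 : 2 * (th d k / 2) = th d k := by ring
        rw [h6] at h5
        linarith
      rw [← Complex.ofReal_cos, h3]; push_cast; ring
    rw [h2] at h1
    linear_combination h1
  rw [e1, e2]
  have e4 : (la d k : ℂ) = 1 / (4 * d * (s : ℂ) ^ 2) := by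
    unfold la; rw [← hs']; push_cast; ring
  rw [e4]
  have e5 : (-1 : ℂ) ^ k * (1 / (4 * d * (s : ℂ) ^ 2)) *
      (Complex.exp (Complex.I * m * th d k) * Complex.exp (Complex.I * th d k)) -
      2 * ((-1) ^ k * (1 / (4 * d * (s : ℂ) ^ 2)) * Complex.exp (Complex.I * m * th d k)) +
      (-1) ^ k * (1 / (4 * d * (s : ℂ) ^ 2)) *
      (Complex.exp (Complex.I * m * th d k) * Complex.exp (-(Complex.I * th d k))) =
      (-1) ^ k * (1 / (4 * d * (s : ℂ) ^ 2)) * Complex.exp (Complex.I * m * th d k) *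
        (Complex.exp (Complex.I * th d k) - 2 + Complex.exp (-(Complex.I * th d k))) := by ring
  rw [e5, e3]
  field_simp

theorem am_symm (d : ℕ) (hd : 0 < d) (m : ℤ) : am d (2 * d - m) = -am d (-m) := by
  have hdR : (d : ℂ) ≠ 0 := by exact_mod_cast hd.ne'
  unfold am
  rw [← sum_neg_distrib]
  refine sum_congr rfl fun k _ => ?_
  have h1 : Complex.exp (Complex.I * ((2 * d - m : ℤ) : ℂ) * th d k) =
      -Complex.exp (Complex.I * ((-m : ℤ) : ℂ) * th d k) := by
    have h2 : Complex.I * ((2 * d - m : ℤ) : ℂ) * th d k =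
        Complex.I * ((-m : ℤ) : ℂ) * th d k + (k * (2 * Real.pi * Complex.I) +
          Real.pi * Complex.I) := by
      unfold th
      push_cast
      field_simp
      ring
    rw [h2, Complex.exp_add, Complex.exp_add, Complex.exp_nat_mul_two_pi_mul_I,
      Complex.exp_pi_mul_I]
    ring
  rw [h1]; ring

theorem exp_d (d : ℕ) (hd : 0 < d) (k : ℕ) :
    Complex.exp (Complex.I * ((d : ℤ) : ℂ) * th d k) = (-1) ^ k * Complex.I := by
  have hdR : (d : ℂ) ≠ 0 := by exact_mod_cast hd.ne'
  have h2 : Complex.I * ((d : ℤ) : ℂ) * th d k =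
      k * (Real.pi * Complex.I) + Real.pi / 2 * Complex.I := by
    unfold th
    push_cast
    field_simp
  rw [h2, Complex.exp_add, Complex.exp_nat_mul, Complex.exp_pi_mul_I, Complex.exp_pi_div_two_mul_I]

theorem am_eq (d : ℕ) (hd : 0 < d) (m : ℤ) (hm : |m| ≤ d) : am d m = Complex.I * m := by
  have hdR : (d : ℂ) ≠ 0 := by exact_mod_cast hd.ne'
  have hrec : ∀ m : ℤ, |m| < d → am d (m + 1) - 2 * am d m + am d (m - 1) = 0 := by
    intro m hm
    rw [am_rec d hd, geom_zero d hd m hm, mul_zero]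
  set α := am d 0 with hα
  set β := am d 1 - am d 0 with hβ
  have h1 : ∀ j : ℕ, j ≤ d → am d j = α + j * β ∧ am d (-(j : ℤ)) = α - j * β := by
    intro j
    induction j using Nat.strong_induction_on with
    | _ j ih =>
      intro hj
      rcases j with _ | _ | j
      · simp [hα]
      · refine ⟨by simp [hα, hβ], ?_⟩
        have := hrec 0 (by simpa using hd)
        simp only [zero_add, zero_sub] at this
        simp only [zero_add, Nat.cast_one, one_mul]
        simp only [hα, hβ]
        linear_combination this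
      · have i1 := ih (j + 1) (by omega) (by omega)
        have i2 := ih j (by omega) (by omega)
        constructor
        · have := hrec (j + 1 : ℕ) (by
            rw [abs_of_nonneg (by positivity)]; exact_mod_cast hj)
          have e1 : (((j + 1 : ℕ) : ℤ) + 1) = ((j + 1 + 1 : ℕ) : ℤ) := by push_cast; ring
          have e2 : (((j + 1 : ℕ) : ℤ) - 1) = ((j : ℕ) : ℤ) := by push_cast; ring
          rw [e1, e2, i1.1, i2.1] at this
          push_cast at this ⊢
          linear_combination this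
        · have := hrec (-((j + 1 : ℕ) : ℤ)) (by
            rw [abs_neg, abs_of_nonneg (by positivity)]; exact_mod_cast hj)
          have e1 : (-((j + 1 : ℕ) : ℤ) + 1) = -((j : ℕ) : ℤ) := by push_cast; ring
          have e2 : (-((j + 1 : ℕ) : ℤ) - 1) = -((j + 1 + 1 : ℕ) : ℤ) := by push_cast; ring
          rw [e1, e2, i1.2, i2.2] at this
          push_cast at this ⊢
          linear_combination this
  have hd1 := h1 d le_rfl
  have hα0 : α = 0 := by
    have h2 := am_symm d hd d
    have e : (2 * (d : ℤ) - d) = d := by ring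
    rw [e, hd1.1, hd1.2] at h2
    have : 2 * α = 0 := by linear_combination h2
    simpa using this
  have hβ1 : β = Complex.I := by
    have h2 := am_rec d hd d
    have h3 : ∑ k ∈ range (2 * d), (-1 : ℂ) ^ k *
        Complex.exp (Complex.I * ((d : ℤ) : ℂ) * th d k) = 2 * d * Complex.I := by
      rw [sum_congr rfl (g := fun _ => Complex.I) (fun k _ => by
        rw [exp_d d hd k, ← mul_assoc, ← mul_pow]; simp)]
      rw [sum_const, card_range, nsmul_eq_mul]; push_cast; ring
    rw [h3] at h2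
    have h4 := am_symm d hd ((d : ℤ) - 1)
    have e : (2 * (d : ℤ) - (d - 1)) = d + 1 := by ring
    have e2 : (-((d : ℤ) - 1)) = -((d - 1 : ℕ) : ℤ) := by
      rw [Nat.cast_sub (by omega)]; push_cast; ring
    have e3 : ((d : ℤ) - 1) = ((d - 1 : ℕ) : ℤ) := by
      rw [Nat.cast_sub (by omega)]; push_cast; ring
    have h5 := h1 (d - 1) (by omega)
    rw [e, e2, h5.2] at h4
    rw [h4, e3, h5.1, hd1.1, hα0] at h2
    have e4 : (((d - 1 : ℕ) : ℕ) : ℂ) = d - 1 := by
      rw [Nat.cast_sub (by omega)]; push_cast; ring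
    rw [e4] at h2
    have h6 : -(1 / (d : ℂ)) * (2 * d * Complex.I) = -2 * Complex.I := by field_simp
    rw [h6] at h2
    linear_combination (-1 / 2) * h2
  rcases le_total 0 m with h | h
  · obtain ⟨j, rfl⟩ := Int.eq_ofNat_of_zero_le h
    rw [abs_of_nonneg h] at hm
    have := (h1 j (by exact_mod_cast hm)).1
    rw [this, hα0, hβ1]; push_cast; ring
  · obtain ⟨j, hj⟩ := Int.eq_ofNat_of_zero_le (neg_nonneg.2 h)
    have hm' : m = -(j : ℤ) := by omega
    rw [abs_of_nonpos h] at hm
    have := (h1 j (by omega)).2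
    rw [hm', this, hα0, hβ1]; push_cast; ring

theorem sum_la (d : ℕ) (hd : 0 < d) : ∑ k ∈ range (2 * d), la d k = d := by
  have h1 := am_eq d hd d (by rw [abs_of_nonneg (by positivity)])
  unfold am at h1
  rw [sum_congr rfl (g := fun k => Complex.I * (la d k : ℂ)) (fun k _ => by
    rw [exp_d d hd k]
    have : ((-1 : ℂ) ^ k) * ((-1) ^ k) = 1 := by rw [← mul_pow]; simp
    linear_combination (la d k : ℂ) * Complex.I * this)] at h1
  rw [← mul_sum] at h1
  have h2 := mul_left_cancel₀ Complex.I_ne_zero h1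
  have h3 : ((∑ k ∈ range (2 * d), la d k : ℝ) : ℂ) = ((d : ℝ) : ℂ) := by
    push_cast; simpa using h2
  exact_mod_cast h3

/-- mixed sums -/
noncomputable def Sm (d j : ℕ) (m : ℤ) : ℂ :=
  ∑ k ∈ range (2 * d), (-1) ^ k * (la d k : ℂ) * (Real.sin (th d k) : ℂ) ^ j *
    Complex.exp (Complex.I * m * th d k)

theorem Sm_succ (d j : ℕ) (m : ℤ) :
    Sm d (j + 1) m = (Sm d j (m + 1) - Sm d j (m - 1)) / (2 * Complex.I) := by
  unfold Sm
  rw [← sum_sub_distrib, sum_div]
  refine sum_congr rfl fun k _ => ?_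
  have e1 : Complex.exp (Complex.I * ((m + 1 : ℤ) : ℂ) * th d k) =
      Complex.exp (Complex.I * m * th d k) * Complex.exp (th d k * Complex.I) := by
    rw [← Complex.exp_add]; congr 1; push_cast; ring
  have e2 : Complex.exp (Complex.I * ((m - 1 : ℤ) : ℂ) * th d k) =
      Complex.exp (Complex.I * m * th d k) * Complex.exp (-(th d k) * Complex.I) := by
    rw [← Complex.exp_add]; congr 1; push_cast; ring
  have e3 : (Real.sin (th d k) : ℂ) = (Complex.exp (-(th d k) * Complex.I) -
      Complex.exp (th d k * Complex.I)) * Complex.I / 2 := by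
    rw [Complex.ofReal_sin]; rfl
  rw [e1, e2, pow_succ, e3]
  have hI : Complex.I ≠ 0 := Complex.I_ne_zero
  field_simp
  have hI2 : Complex.I ^ 2 = -1 := Complex.I_sq
  rw [hI2]
  ring

theorem Sm_val (d : ℕ) (hd : 0 < d) (j : ℕ) : ∀ m : ℤ, |m| + j ≤ d →
    Sm d j m = if j = 0 then Complex.I * m else if j = 1 then 1 else 0 := by
  induction j with
  | zero =>
    intro m hm
    have : Sm d 0 m = am d m := by unfold Sm am; simp
    rw [this, am_eq d hd m (by simpa using hm)]
    simp
  | succ j ih =>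
    intro m hm
    push_cast at hm
    have a1 : |m + 1| + j ≤ d := by
      have : |m + 1| ≤ |m| + 1 := by simpa using abs_add_le m 1
      linarith
    have a2 : |m - 1| + j ≤ d := by
      have : |m - 1| ≤ |m| + 1 := by simpa using abs_sub m 1
      linarith
    rw [Sm_succ, ih _ a1, ih _ a2]
    have hI : Complex.I ≠ 0 := Complex.I_ne_zero
    rcases j with _ | _ | j
    · simp only [if_true]
      push_cast
      field_simp
      norm_num
    · simp
    · simp

theorem riesz_mono (d : ℕ) (hd : 0 < d) (j : ℕ) (hj : j ≤ d) :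
    ∑ k ∈ range (2 * d), (-1) ^ k * la d k * Real.sin (th d k) ^ j = if j = 1 then 1 else 0 := by
  have h1 := Sm_val d hd j 0 (by simpa using hj)
  have h2 : Sm d j 0 = ((∑ k ∈ range (2 * d), (-1) ^ k * la d k * Real.sin (th d k) ^ j : ℝ) : ℂ) := by
    unfold Sm
    push_cast
    exact sum_congr rfl fun k _ => by simp
  rw [h2] at h1
  rcases Nat.eq_zero_or_pos j with h | h
  · subst h
    simp only [if_true, Int.cast_zero, mul_zero] at h1
    have : (∑ k ∈ range (2 * d), (-1) ^ k * la d k * Real.sin (th d k) ^ 0 : ℝ) = 0 := by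
      exact_mod_cast h1
    rw [this]; simp
  · have h0 : ¬ j = 0 := by omega
    simp only [h0, if_false] at h1
    by_cases h3 : j = 1
    · simp only [h3, if_true] at h1 ⊢
      exact_mod_cast h1
    · simp only [h3, if_false] at h1 ⊢
      exact_mod_cast h1

/-- Riesz interpolation formula at 0. -/
theorem riesz (d : ℕ) (hd : 0 < d) (c : ℕ → ℝ) :
    ∑ k ∈ range (2 * d), (-1) ^ k * la d k * (∑ j ∈ range (d + 1), c j * Real.sin (th d k) ^ j) =
      c 1 := by
  simp only [mul_sum]
  rw [sum_comm]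
  have h1 : ∀ j ∈ range (d + 1), ∑ k ∈ range (2 * d), (-1) ^ k * la d k *
      (c j * Real.sin (th d k) ^ j) = c j * if j = 1 then 1 else 0 := by
    intro j hj
    rw [← riesz_mono d hd j (Nat.lt_succ_iff.1 (mem_range.1 hj)), mul_sum]
    exact sum_congr rfl fun k _ => by ring
  rw [sum_congr rfl h1]
  simp only [mul_ite, mul_one, mul_zero]
  rw [sum_ite_eq' (range (d + 1)) 1 c]
  rw [if_pos (mem_range.2 (by omega))]

theorem riesz_bound (d : ℕ) (hd : 0 < d) (c : ℕ → ℝ)
    (hb : ∀ x : ℝ, |x| ≤ 1 → |∑ j ∈ range (d + 1), c j * x ^ j| ≤ 1) (δ : ℝ)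
    (h0 : ∑ j ∈ range (d + 1), c j * Real.sin (th d 0) ^ j ≤ 1 - δ) (hδ : 0 ≤ δ) :
    c 1 ≤ d * (1 - δ / 3) := by
  have hdR : (0 : ℝ) < d := by exact_mod_cast hd
  have hla : ∀ k, 0 ≤ la d k := fun k => by unfold la; positivity
  rw [← riesz d hd c]
  have h1 : ∀ k ∈ range (2 * d), (-1) ^ k * la d k *
      (∑ j ∈ range (d + 1), c j * Real.sin (th d k) ^ j) ≤
      la d k - (if k = 0 then la d 0 * δ else 0) := by
    intro k _
    by_cases hk : k = 0
    · subst hk
      simp only [pow_zero, one_mul, if_true]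
      have := mul_le_mul_of_nonneg_left h0 (hla 0)
      linarith
    · simp only [hk, if_false, sub_zero]
      have h2 := hb (Real.sin (th d k)) (Real.abs_sin_le_one _)
      refine (le_abs_self _).trans ?_
      rw [abs_mul, abs_mul, abs_pow, abs_neg, abs_one, one_pow, one_mul, abs_of_nonneg (hla k)]
      exact mul_le_of_le_one_right (hla k) h2
  refine (sum_le_sum h1).trans ?_
  rw [sum_sub_distrib, sum_la d hd, sum_ite_eq' (range (2 * d)) 0 (fun _ => la d 0 * δ),
    if_pos (mem_range.2 (by omega))]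
  have h3 : (d : ℝ) / 3 ≤ la d 0 := by
    unfold la
    have hs := sin_pos' d 0 hd (by omega)
    rw [div_le_div_iff₀ (by norm_num) (by positivity)]
    have h4 : Real.sin (th d 0 / 2) ≤ th d 0 / 2 := Real.sin_le (by unfold th; positivity)
    have h5 : th d 0 / 2 = Real.pi / (4 * d) := by unfold th; push_cast; ring
    rw [h5] at h4 hs ⊢
    have h6 : Real.sin (Real.pi / (4 * d)) ^ 2 ≤ (Real.pi / (4 * d)) ^ 2 :=
      pow_le_pow_left₀ hs.le h4 2
    have h7 : (Real.pi / (4 * d)) ^ 2 = Real.pi ^ 2 / (16 * d ^ 2) := by ring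
    rw [h7] at h6
    have h8 : Real.pi ^ 2 ≤ 12 := by
      have := Real.pi_lt_d2
      have := Real.pi_pos
      nlinarith
    have h9 : (d : ℝ) * (4 * d * Real.sin (Real.pi / (4 * d)) ^ 2) ≤
        d * (4 * d * (Real.pi ^ 2 / (16 * d ^ 2))) := by
      refine mul_le_mul_of_nonneg_left (mul_le_mul_of_nonneg_left h6 (by positivity)) hdR.le
    have h10 : (d : ℝ) * (4 * d * (Real.pi ^ 2 / (16 * d ^ 2))) = Real.pi ^ 2 / 4 := by
      field_simp; ring
    rw [h10] at h9
    linarith
  have h4 : (d : ℝ) / 3 * δ ≤ la d 0 * δ := mul_le_mul_of_nonneg_right h3 hδ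
  linarith

end Vale.Agent.P047
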