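import Mathlib
import Vale.Agent.P047.Riesz
import Vale.Agent.P047.Biased

namespace Vale.Agent.P047

open Finset

theorem B_zero {n : ℕ} (f : (Fin n → Bool) → ℝ) (i : Fin n) :
    Ex 0 (fun x => f x * chi 0 {i} x) = fhat f {i} := by
  unfold Ex fhat mu chi
  rw [sum_div]
  refine sum_congr rfl fun x _ => ?_
  simp only [prod_singleton, sub_zero, zero_mul, add_zero, prod_const, card_univ, Fintype.card_fin,
    sg]
  rw [one_div, inv_pow]
  ring

/-- polynomial coefficients -/
noncomputable def cj {n : ℕ} (f : (Fin n → Bool) → ℝ) (j : ℕ) : ℝ :=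
  ∑ U ∈ univ.filter (fun U : Finset (Fin n) => U.card = j), fhat f U

theorem p_poly {n : ℕ} (t : ℝ) (f : (Fin n → Bool) → ℝ) (d : ℕ)
    (hd : ∀ U : Finset (Fin n), d < U.card → fhat f U = 0) :
    Ex t f = ∑ j ∈ range (d + 1), cj f j * t ^ j := by
  rw [p_eq]
  have h1 : ∑ U : Finset (Fin n), fhat f U * t ^ U.card =
      ∑ U ∈ univ.filter (fun U : Finset (Fin n) => U.card < d + 1), fhat f U * t ^ U.card := by
    symm
    refine sum_subset (filter_subset _ _) fun U _ hU => ?_
    have : d < U.card := by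
      by_contra hcon
      exact hU (mem_filter.2 ⟨mem_univ _, by omega⟩)
    rw [hd U this, zero_mul]
  rw [h1]
  rw [← sum_fiberwise_of_maps_to (s := univ.filter (fun U : Finset (Fin n) => U.card < d + 1))
    (t := range (d + 1)) (g := fun U => U.card) (fun U hU => mem_range.2 (mem_filter.1 hU).2)]
  refine sum_congr rfl fun j hj => ?_
  unfold cj
  rw [sum_mul, filter_filter]
  have hjd := mem_range.1 hj
  refine sum_congr ?_ ?_
  · ext U; simp only [mem_filter, mem_univ, true_and]; constructor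
    · rintro ⟨_, h⟩; exact h
    · intro h; exact ⟨by omega, h⟩
  · intro U hU
    have : U.card = j := by simpa using hU
    rw [this]

theorem cj_one {n : ℕ} (f : (Fin n → Bool) → ℝ) : cj f 1 = ∑ i, fhat f {i} := by
  unfold cj
  have : univ.filter (fun U : Finset (Fin n) => U.card = 1) =
      univ.map ⟨fun i : Fin n => ({i} : Finset (Fin n)), singleton_injective⟩ := by
    ext U
    simp only [mem_filter, mem_univ, true_and, mem_map, Function.Embedding.coeFn_mk]
    rw [card_eq_one]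
    constructor
    · rintro ⟨a, h⟩; exact ⟨a, h.symm⟩
    · rintro ⟨a, h⟩; exact ⟨a, h.symm⟩
  rw [this, sum_map]
  rfl

theorem Ex_le_one {n : ℕ} (f : (Fin n → Bool) → ℝ) (hf : ∀ x, f x = 1 ∨ f x = -1) (t : ℝ)
    (ht : |t| ≤ 1) : |Ex t f| ≤ 1 := by
  have h := abs_le.1 ht
  have hmu : ∀ x : Fin n → Bool, 0 ≤ mu t x := fun x => by
    refine prod_nonneg fun i _ => ?_
    cases x i <;> simp [sg] <;> linarith
  rw [← mu_sum (n := n) t]
  unfold Ex
  refine (abs_sum_le_sum_abs _ _).trans (sum_le_sum fun x _ => ?_)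
  rw [abs_mul, abs_of_nonneg (hmu x)]
  rcases hf x with h | h <;> rw [h] <;> norm_num

theorem Ex_lt {n : ℕ} (f : (Fin n → Bool) → ℝ) (hf : ∀ x, f x = 1 ∨ f x = -1) (t : ℝ)
    (ht : |t| < 1) (y : Fin n → Bool) (hy : f y = -1) : Ex t f < 1 := by
  rw [← mu_sum (n := n) t]
  unfold Ex
  refine sum_lt_sum (fun x _ => ?_) ⟨y, mem_univ _, ?_⟩
  · have := mu_pos t ht x
    rcases hf x with h | h <;> rw [h] <;> linarith
  · have := mu_pos t ht y
    rw [hy]; linarith

theorem Ex_neg {n : ℕ} (f : (Fin n → Bool) → ℝ) (t : ℝ) :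
    Ex t (fun x => -f x) = -Ex t f := by
  unfold Ex
  rw [← sum_neg_distrib]
  exact sum_congr rfl fun x _ => by ring

theorem exp8 : Real.exp 8 ≤ 3000 := by
  have h1 := Real.exp_one_lt_d9
  have h2 : Real.exp 8 = Real.exp 1 ^ 8 := by
    rw [← Real.exp_nat_mul]; norm_num
  rw [h2]
  calc Real.exp 1 ^ 8 ≤ (2.7182818286 : ℝ) ^ 8 :=
        pow_le_pow_left₀ (Real.exp_pos _).le h1.le 8
    _ ≤ 3000 := by norm_num

theorem main_bound {n : ℕ} (f : (Fin n → Bool) → ℝ) (hf : ∀ x, f x = 1 ∨ f x = -1) (d : ℕ)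
    (hd2 : 2 ≤ d) (hd : ∀ U : Finset (Fin n), d < U.card → fhat f U = 0) :
    ∑ i, fhat f {i} ≤ (1 - 1 / 6000) * d := by
  have hdR : (2 : ℝ) ≤ d := by exact_mod_cast hd2
  rcases le_or_gt (1 / 2) |Ex 0 f| with hp0 | hp0
  · have h1 := diff_ineq 0 (by simp) f hf d hd
    simp only [B_zero] at h1
    have h2 := (le_abs_self _).trans h1
    have h3 : (1 / 2 : ℝ) ^ 2 ≤ Ex 0 f ^ 2 := by
      rw [← sq_abs (Ex 0 f)]
      exact pow_le_pow_left₀ (by norm_num) hp0 2
    nlinarith
  · have hp0' := abs_lt.1 hp0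
    obtain ⟨y, hy⟩ : ∃ y, f y = -1 := by
      by_contra hcon
      push Not at hcon
      have h1 : ∀ x, f x = 1 := fun x => (hf x).resolve_right (hcon x)
      have h2 : Ex 0 f = 1 := by
        unfold Ex; simp only [h1, mul_one]; exact mu_sum 0
      rw [h2] at hp0'; linarith [hp0'.2]
    obtain ⟨z, hz⟩ : ∃ z, f z = 1 := by
      by_contra hcon
      push Not at hcon
      have h1 : ∀ x, f x = -1 := fun x => (hf x).resolve_left (hcon x)
      have h2 : Ex 0 f = -1 := by
        unfold Ex; simp only [h1, mul_neg, mul_one]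
        rw [sum_neg_distrib, mu_sum 0]
      rw [h2] at hp0'; linarith [hp0'.1]
    have hlt : ∀ t : ℝ, |t| < 1 → Ex t f < 1 ∧ -1 < Ex t f := by
      intro t ht
      refine ⟨Ex_lt f hf t ht y hy, ?_⟩
      have := Ex_lt (fun x => -f x) (fun x => by
        rcases hf x with h | h <;> rw [h] <;> norm_num) t ht z (by rw [hz])
      rw [Ex_neg] at this
      linarith
    set t1 : ℝ := Real.sin (th d 0) with ht1
    have hpi := Real.pi_pos
    have hth : th d 0 = Real.pi / (2 * d) := by unfold th; push_cast; ring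
    have hth0 : 0 < th d 0 := by rw [hth]; positivity
    have hthle : th d 0 ≤ Real.pi / 4 := by
      rw [hth]
      exact div_le_div_of_nonneg_left hpi.le (by norm_num) (by linarith)
    have ht1pos : 0 ≤ t1 := Real.sin_nonneg_of_nonneg_of_le_pi hth0.le (by linarith)
    have ht1le : t1 ≤ th d 0 := Real.sin_le hth0.le
    have ht1sq : t1 ^ 2 ≤ 1 / 2 := by
      have h1 : t1 ≤ Real.sin (Real.pi / 4) :=
        Real.sin_le_sin_of_le_of_le_pi_div_two (by linarith) (by linarith) hthle
      rw [Real.sin_pi_div_four] at h1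
      calc t1 ^ 2 ≤ (Real.sqrt 2 / 2) ^ 2 := pow_le_pow_left₀ ht1pos h1 2
        _ = 1 / 2 := by rw [div_pow, Real.sq_sqrt (by norm_num)]; norm_num
    have habs : ∀ t ∈ Set.Icc 0 t1, |t| < 1 ∧ 1 / 2 ≤ 1 - t ^ 2 := by
      intro t ht
      have h1 : t ^ 2 ≤ t1 ^ 2 := pow_le_pow_left₀ ht.1 ht.2 2
      refine ⟨?_, by linarith⟩
      rw [abs_of_nonneg ht.1]
      by_contra hcon
      push Not at hcon
      have : 1 ≤ t ^ 2 := one_le_pow₀ hcon
      linarith
    set G : ℝ → ℝ := fun t => Real.log (1 + Ex t f) - Real.log (1 - Ex t f) with hG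
    set pd : ℝ → ℝ := fun t => (∑ i, Ex t (fun x => f x * chi t {i} x)) / (1 - t ^ 2) with hpd
    have hGd : ∀ t ∈ Set.Icc 0 t1, HasDerivWithinAt G
        (pd t / (1 + Ex t f) - (-pd t) / (1 - Ex t f)) (Set.Icc 0 t1) t := by
      intro t ht
      have h1 := (habs t ht).1
      have h2 := hlt t h1
      have h3 := deriv_p t f h1
      have h4 := (h3.const_add 1).log (by linarith)
      have h5 := (h3.const_sub 1).log (by linarith)
      exact (h4.sub h5).hasDerivWithinAt
    have hGb : ∀ t ∈ Set.Icc 0 t1,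
        ‖pd t / (1 + Ex t f) - (-pd t) / (1 - Ex t f)‖ ≤ 4 * d := by
      intro t ht
      have h1 := habs t ht
      have h2 := hlt t h1.1
      have h3 := diff_ineq t h1.1 f hf d hd
      have h4 : pd t / (1 + Ex t f) - (-pd t) / (1 - Ex t f) =
          2 * pd t / (1 - Ex t f ^ 2) := by
        have e1 : 1 + Ex t f ≠ 0 := by linarith
        have e2 : 1 - Ex t f ≠ 0 := by linarith
        have e3 : 1 - Ex t f ^ 2 = (1 + Ex t f) * (1 - Ex t f) := by ring
        rw [e3]; field_simp; ring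
      have h5 : 0 < 1 - Ex t f ^ 2 := by nlinarith
      rw [h4, Real.norm_eq_abs, abs_div, abs_of_pos h5, div_le_iff₀ h5, abs_mul, abs_two]
      have h6 : |pd t| ≤ 2 * (d * (1 - Ex t f ^ 2)) := by
        simp only [hpd]
        rw [abs_div, abs_of_pos (by linarith : (0 : ℝ) < 1 - t ^ 2), div_le_iff₀ (by linarith)]
        have h7 : 0 ≤ (d : ℝ) * (1 - Ex t f ^ 2) := by positivity
        nlinarith
      linarith
    have hmv := Convex.norm_image_sub_le_of_norm_hasDerivWithin_le hGd hGb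
      (convex_Icc 0 t1) (Set.left_mem_Icc.2 ht1pos) (Set.right_mem_Icc.2 ht1pos)
    rw [Real.norm_eq_abs, Real.norm_eq_abs, sub_zero, abs_of_nonneg ht1pos] at hmv
    have h1 : 4 * (d : ℝ) * t1 ≤ 6.3 := by
      have h2 : 4 * (d : ℝ) * t1 ≤ 4 * d * (Real.pi / (2 * d)) :=
        mul_le_mul_of_nonneg_left (by rw [← hth]; exact ht1le) (by linarith)
      have h3 : 4 * (d : ℝ) * (Real.pi / (2 * d)) = 2 * Real.pi := by field_simp; ring
      have := Real.pi_lt_d2
      linarith
    have h2 : G t1 - G 0 ≤ 6.3 := (le_abs_self _).trans (hmv.trans h1)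
    have h3 : G 0 ≤ 1.6 := by
      simp only [hG]
      have g1 : Real.log (1 + Ex 0 f) ≤ Real.log (3 / 2) :=
        Real.log_le_log (by linarith [hp0'.1]) (by linarith [hp0'.2])
      have g2 : Real.log (1 / 2) ≤ Real.log (1 - Ex 0 f) :=
        Real.log_le_log (by norm_num) (by linarith [hp0'.2])
      have g3 : Real.log (3 / 2) ≤ 1 / 2 := by
        have := Real.log_le_sub_one_of_pos (x := (3 / 2 : ℝ)) (by norm_num)
        linarith
      have g4 : Real.log (1 / 2) = -Real.log 2 := by rw [one_div, Real.log_inv]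
      have g5 := Real.log_two_lt_d9
      linarith
    have h4 : G t1 ≤ 8 := by linarith
    have ht1abs : |t1| < 1 := (habs t1 (Set.right_mem_Icc.2 ht1pos)).1
    have h5 := hlt t1 ht1abs
    have h6 : 1 + Ex t1 f ≤ 3000 * (1 - Ex t1 f) := by
      simp only [hG] at h4
      have h7 : Real.log (1 + Ex t1 f) ≤ 8 + Real.log (1 - Ex t1 f) := by linarith
      have h8 := Real.exp_le_exp.2 h7
      rw [Real.exp_log (by linarith), Real.exp_add, Real.exp_log (by linarith)] at h8
      exact h8.trans (mul_le_mul_of_nonneg_right exp8 (by linarith))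
    have h7 : Ex t1 f ≤ 1 - 1 / 2000 := by
      by_contra hcon
      push Not at hcon
      linarith
    have h8 := riesz_bound d (by omega) (cj f) (fun x hx => by
      rw [← p_poly x f d hd]; exact Ex_le_one f hf x hx) (1 / 2000)
      (by rw [← p_poly _ f d hd]; exact h7) (by norm_num)
    rw [cj_one] at h8
    linarith

end Vale.Agent.P047
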