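import Mathlib
import Vale.Agent.P047.Combine

namespace Vale.Agent.P047

open Finset

theorem exp443 : Real.exp 4.43 ≤ 98 := by
  have h1 := Real.exp_one_lt_d9
  have h2 : Real.exp 9 = Real.exp 1 ^ 9 := by
    rw [← Real.exp_nat_mul]; norm_num
  have h3 : Real.exp 9 ≤ 98 ^ 2 := by
    rw [h2]
    calc Real.exp 1 ^ 9 ≤ (2.7182818286 : ℝ) ^ 9 :=
          pow_le_pow_left₀ (Real.exp_pos _).le h1.le 9
      _ ≤ 98 ^ 2 := by norm_num
  have h4 : Real.exp 4.43 ^ 2 ≤ 98 ^ 2 := by
    rw [← Real.exp_nat_mul]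
    refine le_trans (Real.exp_le_exp.2 ?_) h3
    norm_num
  exact le_of_sq_le_sq h4 (by norm_num)

theorem main_bound2 {n : ℕ} (f : (Fin n → Bool) → ℝ) (hf : ∀ x, f x = 1 ∨ f x = -1) (d : ℕ)
    (hd2 : 2 ≤ d) (hd : ∀ U : Finset (Fin n), d < U.card → fhat f U = 0) :
    ∑ i, fhat f {i} ≤ (1 - 1 / 150) * d := by
  have hdR : (2 : ℝ) ≤ d := by exact_mod_cast hd2
  rcases le_or_gt (1 / 10) |Ex 0 f| with hp0 | hp0
  · have h1 := diff_ineq 0 (by simp) f hf d hd
    simp only [B_zero] at h1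
    have h2 := (le_abs_self _).trans h1
    have h3 : (1 / 10 : ℝ) ^ 2 ≤ Ex 0 f ^ 2 := by
      rw [← sq_abs (Ex 0 f)]
      exact pow_le_pow_left₀ (by norm_num) hp0 2
    nlinarith
  · have hp0' := abs_lt.1 hp0
    obtain ⟨y, hy⟩ : ∃ y, f y = -1 := by
      by_contra hcon
      push Not at hcon
      have h1 : ∀ x, f x = 1 := fun x => (hf x).resolve_right (hcon x)
      have h2 : Ex 0 f = 1 := by
        unfold Ex; simp only [h1, mul_one]; exact mu_sum 0
      rw [h2] at hp0'; linarith [hp0'.2]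
    obtain ⟨z, hz⟩ : ∃ z, f z = 1 := by
      by_contra hcon
      push Not at hcon
      have h1 : ∀ x, f x = -1 := fun x => (hf x).resolve_left (hcon x)
      have h2 : Ex 0 f = -1 := by
        unfold Ex; simp only [h1, mul_neg, mul_one]
        rw [sum_neg_distrib, mu_sum 0]
      rw [h2] at hp0'; linarith [hp0'.1]
    have hlt : ∀ t : ℝ, |t| < 1 → Ex t f < 1 ∧ -1 < Ex t f := by
      intro t ht
      refine ⟨Ex_lt f hf t ht y hy, ?_⟩
      have := Ex_lt (fun x => -f x) (fun x => by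
        rcases hf x with h | h <;> rw [h] <;> norm_num) t ht z (by rw [hz])
      rw [Ex_neg] at this
      linarith
    set t1 : ℝ := Real.sin (th d 0) with ht1
    have hpi := Real.pi_pos
    have hth : th d 0 = Real.pi / (2 * d) := by unfold th; push_cast; ring
    have hth0 : 0 < th d 0 := by rw [hth]; positivity
    have hthle : th d 0 ≤ Real.pi / 4 := by
      rw [hth]
      exact div_le_div_of_nonneg_left hpi.le (by norm_num) (by linarith)
    have ht1pos : 0 ≤ t1 := Real.sin_nonneg_of_nonneg_of_le_pi hth0.le (by linarith)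
    have ht1le : t1 ≤ th d 0 := Real.sin_le hth0.le
    have ht1sq : t1 ^ 2 ≤ 1 / 2 := by
      have h1 : t1 ≤ Real.sin (Real.pi / 4) :=
        Real.sin_le_sin_of_le_of_le_pi_div_two (by linarith) (by linarith) hthle
      rw [Real.sin_pi_div_four] at h1
      calc t1 ^ 2 ≤ (Real.sqrt 2 / 2) ^ 2 := pow_le_pow_left₀ ht1pos h1 2
        _ = 1 / 2 := by rw [div_pow, Real.sq_sqrt (by norm_num)]; norm_num
    have habs : ∀ t ∈ Set.Icc 0 t1, |t| < 1 ∧ 1 / 2 ≤ 1 - t ^ 2 := by
      intro t ht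
      have h1 : t ^ 2 ≤ t1 ^ 2 := pow_le_pow_left₀ ht.1 ht.2 2
      refine ⟨?_, by linarith⟩
      rw [abs_of_nonneg ht.1]
      by_contra hcon
      push Not at hcon
      have : 1 ≤ t ^ 2 := one_le_pow₀ hcon
      linarith
    set G : ℝ → ℝ := fun t => Real.log (1 + Ex t f) - Real.log (1 - Ex t f) with hG
    set pd : ℝ → ℝ := fun t => (∑ i, Ex t (fun x => f x * chi t {i} x)) / (1 - t ^ 2) with hpd
    have hGd : ∀ t ∈ Set.Icc 0 t1, HasDerivAt G
        (pd t / (1 + Ex t f) - (-pd t) / (1 - Ex t f)) t := by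
      intro t ht
      have h1 := (habs t ht).1
      have h2 := hlt t h1
      have h3 := deriv_p t f h1
      have h4 := (h3.const_add 1).log (by linarith)
      have h5 := (h3.const_sub 1).log (by linarith)
      exact h4.sub h5
    have hGb : ∀ t ∈ Set.Icc 0 t1,
        pd t / (1 + Ex t f) - (-pd t) / (1 - Ex t f) ≤ 2 * d / (1 - t ^ 2) := by
      intro t ht
      have h1 := habs t ht
      have h2 := hlt t h1.1
      have h3 := diff_ineq t h1.1 f hf d hd
      have h4 : pd t / (1 + Ex t f) - (-pd t) / (1 - Ex t f) =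
          2 * pd t / (1 - Ex t f ^ 2) := by
        have e1 : 1 + Ex t f ≠ 0 := by linarith
        have e2 : 1 - Ex t f ≠ 0 := by linarith
        have e3 : 1 - Ex t f ^ 2 = (1 + Ex t f) * (1 - Ex t f) := by ring
        rw [e3]; field_simp; ring
      have h5 : 0 < 1 - Ex t f ^ 2 := by nlinarith
      have h6 : 0 < 1 - t ^ 2 := by linarith
      rw [h4, div_le_div_iff₀ h5 h6]
      have h7 : pd t * (1 - t ^ 2) ≤ d * (1 - Ex t f ^ 2) := by
        simp only [hpd]
        rw [div_mul_cancel₀ _ h6.ne']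
        exact (le_abs_self _).trans h3
      nlinarith
    set H : ℝ → ℝ := fun t => d * (2 * t + 2 / 3 * (t ^ 3 / (1 - t ^ 2))) - G t with hH
    have hHd : ∀ t ∈ Set.Icc 0 t1, HasDerivAt H
        (d * (2 * 1 + 2 / 3 * (((3 : ℕ) * t ^ (3 - 1) * (1 - t ^ 2) -
          t ^ 3 * (-((2 : ℕ) * t ^ (2 - 1)))) / (1 - t ^ 2) ^ 2)) -
          (pd t / (1 + Ex t f) - (-pd t) / (1 - Ex t f))) t := by
      intro t ht
      have h1 := habs t ht
      have h6 : (1 - t ^ 2) ≠ 0 := by linarith
      have a1 := hasDerivAt_pow 3 t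
      have a2 := (hasDerivAt_pow 2 t).const_sub 1
      have a3 := (a1.div a2 h6).const_mul (2 / 3)
      have a4 := (hasDerivAt_id t).const_mul 2
      exact ((a4.add a3).const_mul (d : ℝ)).sub (hGd t ht)
    have hmono : MonotoneOn H (Set.Icc 0 t1) := by
      refine monotoneOn_of_deriv_nonneg (convex_Icc 0 t1)
        (fun t ht => (hHd t ht).continuousAt.continuousWithinAt)
        (fun t ht => (hHd t (interior_subset ht)).differentiableAt.differentiableWithinAt)
        (fun t ht => ?_)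
      have ht' := interior_subset ht
      rw [(hHd t ht').deriv]
      have h1 := habs t ht'
      have h6 : 0 < 1 - t ^ 2 := by linarith
      have h7 := hGb t ht'
      have h8 : (d : ℝ) * (2 * 1 + 2 / 3 * (((3 : ℕ) * t ^ (3 - 1) * (1 - t ^ 2) -
          t ^ 3 * (-((2 : ℕ) * t ^ (2 - 1)))) / (1 - t ^ 2) ^ 2)) =
          2 * d / (1 - t ^ 2) + d * (4 / 3 * t ^ 4 / (1 - t ^ 2) ^ 2) := by
        have h9 : (1 - t ^ 2) ≠ 0 := h6.ne'
        push_cast
        field_simp
        ring
      rw [h8]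
      have h10 : 0 ≤ (d : ℝ) * (4 / 3 * t ^ 4 / (1 - t ^ 2) ^ 2) := by positivity
      linarith
    have hmv := hmono (Set.left_mem_Icc.2 ht1pos) (Set.right_mem_Icc.2 ht1pos) ht1pos
    have hU : t1 ^ 3 / (1 - t1 ^ 2) ≤ t1 := by
      rw [div_le_iff₀ (by linarith)]
      have e1 : t1 ^ 3 = t1 * t1 ^ 2 := by ring
      rw [e1]
      exact mul_le_mul_of_nonneg_left (by linarith) ht1pos
    have h1 : (d : ℝ) * (2 * t1 + 2 / 3 * (t1 ^ 3 / (1 - t1 ^ 2))) ≤ 4.2 := by
      have h2 : (d : ℝ) * (2 * t1 + 2 / 3 * (t1 ^ 3 / (1 - t1 ^ 2))) ≤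
          d * (8 / 3 * (Real.pi / (2 * d))) := by
        refine mul_le_mul_of_nonneg_left ?_ (by linarith)
        rw [← hth]; linarith
      have h3 : (d : ℝ) * (8 / 3 * (Real.pi / (2 * d))) = 4 / 3 * Real.pi := by
        field_simp; ring
      have := Real.pi_lt_d2
      linarith
    have h2 : G t1 - G 0 ≤ 4.2 := by
      have e0 : H 0 = - G 0 := by simp only [hH]; norm_num
      have e1 : H t1 = d * (2 * t1 + 2 / 3 * (t1 ^ 3 / (1 - t1 ^ 2))) - G t1 := rfl
      rw [e0, e1] at hmv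
      linarith
    have h3 : G 0 ≤ 0.23 := by
      simp only [hG]
      have g1 : Real.log (1 + Ex 0 f) ≤ Real.log (11 / 10) :=
        Real.log_le_log (by linarith [hp0'.1]) (by linarith [hp0'.2])
      have g2 : Real.log (9 / 10) ≤ Real.log (1 - Ex 0 f) :=
        Real.log_le_log (by norm_num) (by linarith [hp0'.2])
      have g3 : Real.log (11 / 10) - Real.log (9 / 10) = Real.log (11 / 9) := by
        rw [← Real.log_div (by norm_num) (by norm_num)]; norm_num
      have g4 := Real.log_le_sub_one_of_pos (x := (11 / 9 : ℝ)) (by norm_num)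
      norm_num at g4 ⊢
      linarith
    have h4 : G t1 ≤ 4.43 := by linarith
    have ht1abs : |t1| < 1 := (habs t1 (Set.right_mem_Icc.2 ht1pos)).1
    have h5 := hlt t1 ht1abs
    have h6 : 1 + Ex t1 f ≤ 98 * (1 - Ex t1 f) := by
      simp only [hG] at h4
      have h7 : Real.log (1 + Ex t1 f) ≤ 4.43 + Real.log (1 - Ex t1 f) := by linarith
      have h8 := Real.exp_le_exp.2 h7
      rw [Real.exp_log (by linarith), Real.exp_add, Real.exp_log (by linarith)] at h8
      exact h8.trans (mul_le_mul_of_nonneg_right exp443 (by linarith))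
    have h7 : Ex t1 f ≤ 1 - 1 / 50 := by
      by_contra hcon
      push Not at hcon
      linarith
    have h8 := riesz_bound d (by omega) (cj f) (fun x hx => by
      rw [← p_poly x f d hd]; exact Ex_le_one f hf x hx) (1 / 50)
      (by rw [← p_poly _ f d hd]; exact h7) (by norm_num)
    rw [cj_one] at h8
    linarith

end Vale.Agent.P047
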